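import Mathlib.Analysis.SpecialFunctions.PolarCoord
import Mathlib.MeasureTheory.Measure.Lebesgue.Complex
import Mathlib.MeasureTheory.Integral.CircleAverage

/-!
# P284, theorem AE (helper5): a function which is almost everywhere constant on a disc is almost everywhere
constant on some concentric circle.
-/

open scoped Topology ENNReal
open Filter Set Metric MeasureTheory Real

noncomputable section

namespace Vale.Agent.P284.H5.AE

theorem polar_symm (t θ : ℝ) :
    Complex.polarCoord.symm (t, θ) = (t : ℂ) * Complex.exp (θ * Complex.I) := by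
  rw [Complex.polarCoord_symm_apply, Complex.exp_mul_I]
  simp [Complex.ofReal_cos, Complex.ofReal_sin]

/-- polar coordinates in the plane -/
theorem lintegral_polar {f : ℂ → ℝ≥0∞} (hf : Measurable f) :
    ∫⁻ z, f z = ∫⁻ t in Ioi (0 : ℝ), ENNReal.ofReal t *
        ∫⁻ θ in Ioo (-π) π, f ((t : ℂ) * Complex.exp (θ * Complex.I)) := by
  rw [← Complex.lintegral_comp_polarCoord_symm]
  have hm : Measurable fun p : ℝ × ℝ => ENNReal.ofReal p.1 • f (Complex.polarCoord.symm p) := by
    have h1 : Measurable fun p : ℝ × ℝ => Complex.polarCoord.symm p := by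
      simp only [Complex.polarCoord_symm_apply]
      fun_prop
    simp only [smul_eq_mul]
    exact (ENNReal.measurable_ofReal.comp measurable_fst).mul (hf.comp h1)
  have h2 : (polarCoord.target : Set (ℝ × ℝ)) = Ioi (0 : ℝ) ×ˢ Ioo (-π) π := rfl
  rw [h2, Measure.volume_eq_prod, setLIntegral_prod _ hm.aemeasurable]
  refine setLIntegral_congr_fun measurableSet_Ioi fun t _ => ?_
  simp only [polar_symm, smul_eq_mul]
  rw [lintegral_const_mul' _ _ ENNReal.ofReal_ne_top]

/-- a null set of the plane meets almost every circle around `z₀` in a null set -/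
theorem ae_circle {N : Set ℂ} (hN : volume N = 0) (z₀ : ℂ) :
    ∀ᵐ t : ℝ ∂(volume.restrict (Ioi (0 : ℝ))), ∀ᵐ θ : ℝ ∂(volume.restrict (Ioo (-π) π)),
      z₀ + (t : ℂ) * Complex.exp (θ * Complex.I) ∉ N := by
  set M : Set ℂ := toMeasurable volume N with hM
  have hM0 : volume M = 0 := by rw [hM, measure_toMeasurable, hN]
  have hMm : MeasurableSet M := measurableSet_toMeasurable _ _
  set f : ℂ → ℝ≥0∞ := fun z => M.indicator (fun _ => (1 : ℝ≥0∞)) (z₀ + z) with hf
  have hfm : Measurable f := (measurable_const.indicator hMm).comp (measurable_const_add z₀)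
  have h0 : ∫⁻ z, f z = 0 := by
    have h1 : ∫⁻ z, f z = ∫⁻ z, M.indicator (fun _ => (1 : ℝ≥0∞)) z :=
      lintegral_add_left_eq_self (μ := (volume : Measure ℂ))
        (M.indicator fun _ => (1 : ℝ≥0∞)) z₀
    rw [h1, lintegral_indicator hMm, lintegral_const, Measure.restrict_apply_univ, hM0, mul_zero]
  rw [lintegral_polar hfm] at h0
  have hjm : Measurable fun p : ℝ × ℝ => f ((p.1 : ℂ) * Complex.exp (p.2 * Complex.I)) := by
    refine hfm.comp ?_
    fun_prop
  have hm : Measurable fun t : ℝ => ENNReal.ofReal t *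
      ∫⁻ θ in Ioo (-π) π, f ((t : ℂ) * Complex.exp (θ * Complex.I)) :=
    ENNReal.measurable_ofReal.mul hjm.lintegral_prod_right'
  rw [lintegral_eq_zero_iff hm] at h0
  filter_upwards [h0, ae_restrict_mem measurableSet_Ioi] with t ht ht0
  have h2 : ∫⁻ θ in Ioo (-π) π, f ((t : ℂ) * Complex.exp (θ * Complex.I)) = 0 := by
    have h3 : ENNReal.ofReal t * ∫⁻ θ in Ioo (-π) π, f ((t : ℂ) * Complex.exp (θ * Complex.I)) = 0 :=
      ht
    rcases mul_eq_zero.1 h3 with h4 | h4
    · exact absurd (ENNReal.ofReal_eq_zero.1 h4) (not_le.2 ht0)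
    · exact h4
  have hgm : Measurable fun θ : ℝ => f ((t : ℂ) * Complex.exp (θ * Complex.I)) := by
    refine hfm.comp ?_
    fun_prop
  rw [lintegral_eq_zero_iff hgm] at h2
  filter_upwards [h2] with θ hθ hmem
  have h3 : z₀ + (t : ℂ) * Complex.exp (θ * Complex.I) ∈ M := subset_toMeasurable _ _ hmem
  have h4 : f ((t : ℂ) * Complex.exp (θ * Complex.I)) = 1 := by
    rw [hf]
    exact indicator_of_mem h3 _
  rw [h4] at hθ
  exact one_ne_zero hθ

/-- the circle average of a function which is constant almost everywhere on the circle -/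
theorem circleAverage_of_ae {w : ℂ → ℝ} {z₀ : ℂ} {c t : ℝ}
    (h : ∀ᵐ θ : ℝ ∂(volume.restrict (Ioo (-π) π)),
      w (z₀ + (t : ℂ) * Complex.exp (θ * Complex.I)) = c) : Real.circleAverage w z₀ t = c := by
  have h1 : Real.circleAverage w z₀ t = (2 * π)⁻¹ * ∫ θ in (-π)..π, w (circleMap z₀ t θ) := by
    rw [circleAverage_eq_integral_add (-π), smul_eq_mul]
    congr 1
    rw [intervalIntegral.integral_comp_add_right (fun θ => w (circleMap z₀ t θ))]
    congr 1 <;> ring
  have h2 : ∫ θ in (-π)..π, w (circleMap z₀ t θ) = ∫ _θ in (-π)..π, c := by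
    rw [intervalIntegral.integral_of_le (by linarith [Real.pi_pos]),
      intervalIntegral.integral_of_le (by linarith [Real.pi_pos]), integral_Ioc_eq_integral_Ioo,
      integral_Ioc_eq_integral_Ioo]
    refine integral_congr_ae ?_
    filter_upwards [h] with θ hθ
    have h3 : circleMap z₀ t θ = z₀ + (t : ℂ) * Complex.exp (θ * Complex.I) := rfl
    rw [h3]
    exact hθ
  rw [h1, h2, intervalIntegral.integral_const, smul_eq_mul]
  have h3 : (0 : ℝ) < 2 * π := by positivity
  have h4 : π - -π = 2 * π := by ring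
  rw [h4, ← mul_assoc, inv_mul_cancel₀ h3.ne', one_mul]

/-- a function which is almost everywhere equal to a constant on a disc has this circle average on some
concentric circle (in fact on almost every one) -/
theorem ae_circleAverage (w : ℂ → ℝ) (z₀ : ℂ) (c r : ℝ)
    (h : ∀ᵐ z ∂(volume.restrict (ball z₀ r)), w z = c) :
    ∀ᵐ t : ℝ ∂(volume.restrict (Ioo (0 : ℝ) r)), Real.circleAverage w z₀ t = c := by
  have hN : volume {z | ¬ (z ∈ ball z₀ r → w z = c)} = 0 := by
    have h1 := (ae_restrict_iff' measurableSet_ball).1 h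
    exact ae_iff.1 h1
  have h1 := ae_circle hN z₀
  have h2 : ∀ᵐ t : ℝ ∂(volume.restrict (Ioo (0 : ℝ) r)), ∀ᵐ θ : ℝ ∂(volume.restrict (Ioo (-π) π)),
      z₀ + (t : ℂ) * Complex.exp (θ * Complex.I) ∉ {z | ¬ (z ∈ ball z₀ r → w z = c)} :=
    ae_mono (Measure.restrict_mono Ioo_subset_Ioi_self le_rfl) h1
  filter_upwards [h2, ae_restrict_mem measurableSet_Ioo] with t ht htr
  refine circleAverage_of_ae ?_
  filter_upwards [ht] with θ hθ
  have h3 : z₀ + (t : ℂ) * Complex.exp (θ * Complex.I) ∈ ball z₀ r := by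
    rw [mem_ball, dist_eq_norm, add_sub_cancel_left, norm_mul, Complex.norm_exp_ofReal_mul_I, mul_one,
      Complex.norm_real, Real.norm_eq_abs, abs_of_pos htr.1]
    exact htr.2
  by_contra h4
  exact hθ fun h5 => h4 (h5 h3)

theorem exists_circle (w : ℂ → ℝ) (z₀ : ℂ) (c r : ℝ) (hr : 0 < r)
    (h : ∀ᵐ z ∂(volume.restrict (ball z₀ r)), w z = c) :
    ∃ ρ ∈ Ioo (0 : ℝ) r, Real.circleAverage w z₀ ρ = c := by
  have h1 := ae_circleAverage w z₀ c r h
  have h2 := ae_restrict_mem (μ := volume) (measurableSet_Ioo (a := (0 : ℝ)) (b := r))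
  have h3 : (volume.restrict (Ioo (0 : ℝ) r)) ≠ 0 := by
    rw [Ne, Measure.restrict_eq_zero, Real.volume_Ioo, sub_zero, ENNReal.ofReal_eq_zero, not_le]
    exact hr
  have : (ae (volume.restrict (Ioo (0 : ℝ) r))).NeBot := ae_neBot.2 h3
  obtain ⟨t, ht1, ht2⟩ := (h2.and h1).exists
  exact ⟨t, ht1, ht2⟩

end Vale.Agent.P284.H5.AE
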